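import Vale.Agent.P158b.Final

/-! No bigeodesics in planar first-passage percolation, for every atomless weight law. -/

open MeasureTheory ProbabilityTheory

namespace Vale.Agent.Results.P158.NoBigeodesic

open Vale.Agent.P158b

theorem result {Ω : Type*} [MeasurableSpace Ω] (P : Measure Ω) [IsProbabilityMeasure P]
    (G : Measure ℝ) [IsProbabilityMeasure G] (hG : G (Set.Iio 0) = 0) (hatom : ∀ x, G {x} = 0)
    (t : grid.edgeSet → Ω → ℝ) (hmeas : ∀ e, Measurable (t e)) (hind : iIndepFun t P)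
    (hlaw : ∀ e, P.map (t e) = G) :
    ∀ᵐ ω ∂P, ¬ ∃ v : ℤ → ℤ × ℤ, IsBigeodesic (fun e => t e ω) v :=
  no_bigeodesic P G hG hatom t hmeas hind hlaw

end Vale.Agent.Results.P158.NoBigeodesic
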